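import Mathlib

/-!
P193, W5: swaps of prefixes of two neighbouring lengths, and their effect on longer prefixes.
-/

namespace Vale.Agent.P193.Prefix

/-- A prefix. -/
abbrev Wd := List Bool

/-- Incomparable prefixes. -/
def Inc (a b : Wd) : Prop := ¬ a <+: b ∧ ¬ b <+: a

lemma Inc.symm {a b : Wd} (h : Inc a b) : Inc b a := ⟨h.2, h.1⟩

lemma inc_iff_ne {a b : Wd} (h : a.length = b.length) : Inc a b ↔ a ≠ b := by
  refine ⟨fun hi he => hi.1 (he ▸ List.prefix_rfl), fun hne => ⟨fun hp => ?_, fun hp => ?_⟩⟩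
  · exact hne (hp.eq_of_length h)
  · exact hne (hp.eq_of_length h.symm).symm

lemma Inc.of_prefix {a b c : Wd} (h : Inc a b) (hc : b <+: c) : Inc a c :=
  ⟨fun h' => (List.prefix_or_prefix_of_prefix h' hc).elim h.1 h.2, fun h' => h.2 (hc.trans h')⟩

variable {N : ℕ}

/-- A move: a swap of two incomparable prefixes of lengths `N` or `N + 1`. -/
structure Mv (N : ℕ) where
  a : Wd
  b : Wd
  ha : a.length = N ∨ a.length = N + 1
  hb : b.length = N ∨ b.length = N + 1
  inc : Inc a b

@[ext] lemma Mv.ext' {s t : Mv N} (h : s.a = t.a) (h' : s.b = t.b) : s = t := by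
  cases s; cases t; simp_all

instance : Finite (Mv N) := by
  have : Finite {l : Wd | l.length ≤ N + 1} := (List.finite_length_le Bool (N + 1)).to_subtype
  refine Finite.of_injective (β := {l : Wd | l.length ≤ N + 1} × {l : Wd | l.length ≤ N + 1})
    (fun s => (⟨s.a, by have := s.ha; show s.a.length ≤ N + 1; omega⟩,
      ⟨s.b, by have := s.hb; show s.b.length ≤ N + 1; omega⟩)) fun s t h => ?_
  simp only [Prod.mk.injEq, Subtype.mk.injEq] at h
  exact Mv.ext' h.1 h.2

/-- The same swap with the two prefixes exchanged. -/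
def Mv.symm (s : Mv N) : Mv N := ⟨s.b, s.a, s.hb, s.ha, s.inc.symm⟩

/-- The effect on a prefix. -/
def mv (s : Mv N) (w : Wd) : Wd :=
  if s.a <+: w then s.b ++ w.drop s.a.length
  else if s.b <+: w then s.a ++ w.drop s.b.length
  else w

/-- The move is a substitution of prefixes on `w`. -/
def Aff (s : Mv N) (w : Wd) : Prop := (w <+: s.a → s.a <+: w) ∧ (w <+: s.b → s.b <+: w)

variable {s : Mv N} {v w : Wd}

lemma mv_a (s : Mv N) (t : Wd) : mv s (s.a ++ t) = s.b ++ t := by
  simp [mv]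

lemma mv_b (s : Mv N) (t : Wd) : mv s (s.b ++ t) = s.a ++ t := by
  have : ¬ s.a <+: s.b ++ t := fun h =>
    (List.prefix_or_prefix_of_prefix h (List.prefix_append _ _)).elim s.inc.1 s.inc.2
  simp [mv, this]

lemma mv_of_not (ha : ¬ s.a <+: w) (hb : ¬ s.b <+: w) : mv s w = w := by simp [mv, ha, hb]

lemma mv_symm (s : Mv N) (w : Wd) : mv s.symm w = mv s w := by
  by_cases ha : s.a <+: w
  · obtain ⟨t, rfl⟩ := ha
    rw [mv_a]
    exact mv_b s.symm t
  · by_cases hb : s.b <+: w
    · obtain ⟨t, rfl⟩ := hb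
      rw [mv_b]
      exact mv_a s.symm t
    · rw [mv_of_not ha hb]
      exact mv_of_not hb ha

lemma aff_symm : Aff s.symm w ↔ Aff s w := ⟨fun h => ⟨h.2, h.1⟩, fun h => ⟨h.2, h.1⟩⟩

lemma Inc.fix (ha : Inc s.a w) (hb : Inc s.b w) : Aff s w ∧ mv s w = w :=
  ⟨⟨fun h => absurd h ha.2, fun h => absurd h hb.2⟩, mv_of_not ha.1 hb.1⟩

lemma mv_mv (s : Mv N) (w : Wd) : mv s (mv s w) = w := by
  by_cases ha : s.a <+: w
  · obtain ⟨t, rfl⟩ := ha
    rw [mv_a, mv_b]
  · by_cases hb : s.b <+: w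
    · obtain ⟨t, rfl⟩ := hb
      rw [mv_b, mv_a]
    · rw [mv_of_not ha hb, mv_of_not ha hb]

lemma aff_of_under (h : s.a <+: w ∨ s.b <+: w) : Aff s w := by
  rcases h with h | h
  · exact ⟨fun _ => h, fun h' => absurd (h.trans h') s.inc.1⟩
  · exact ⟨fun h' => absurd (h.trans h') s.inc.2, fun _ => h⟩

lemma aff_mv (h : Aff s w) : Aff s (mv s w) := by
  by_cases ha : s.a <+: w
  · obtain ⟨t, rfl⟩ := ha
    rw [mv_a]
    exact aff_of_under (Or.inr (List.prefix_append _ _))
  · by_cases hb : s.b <+: w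
    · obtain ⟨t, rfl⟩ := hb
      rw [mv_b]
      exact aff_of_under (Or.inl (List.prefix_append _ _))
    · rwa [mv_of_not ha hb]

lemma mv_append (h : Aff s v) (t : Wd) : mv s (v ++ t) = mv s v ++ t := by
  by_cases ha : s.a <+: v
  · obtain ⟨u, rfl⟩ := ha
    rw [List.append_assoc, mv_a, mv_a, List.append_assoc]
  · by_cases hb : s.b <+: v
    · obtain ⟨u, rfl⟩ := hb
      rw [List.append_assoc, mv_b, mv_b, List.append_assoc]
    · rw [mv_of_not ha hb, mv_of_not]
      · intro hp
        rcases List.prefix_or_prefix_of_prefix hp (List.prefix_append v t) with h' | h'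
        · exact ha h'
        · exact ha (h.1 h')
      · intro hp
        rcases List.prefix_or_prefix_of_prefix hp (List.prefix_append v t) with h' | h'
        · exact hb h'
        · exact hb (h.2 h')

lemma mv_prefix (h : Aff s v) (hp : v <+: w) : mv s v <+: mv s w := by
  obtain ⟨t, rfl⟩ := hp
  rw [mv_append h]
  exact List.prefix_append _ _

lemma mv_prefix_iff (hv : Aff s v) : mv s v <+: mv s w ↔ v <+: w := by
  refine ⟨fun h => ?_, mv_prefix hv⟩
  have := mv_prefix (aff_mv hv) h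
  rwa [mv_mv, mv_mv] at this

lemma mv_inc (hv : Aff s v) (hw : Aff s w) (h : Inc v w) : Inc (mv s v) (mv s w) :=
  ⟨fun h' => h.1 ((mv_prefix_iff hv).1 h'), fun h' => h.2 ((mv_prefix_iff hw).1 h')⟩

lemma le_length_mv (h : N ≤ w.length) : N ≤ (mv s w).length := by
  have := s.ha
  have := s.hb
  by_cases ha : s.a <+: w
  · obtain ⟨t, rfl⟩ := ha
    rw [mv_a, List.length_append]; omega
  · by_cases hb : s.b <+: w
    · obtain ⟨t, rfl⟩ := hb
      rw [mv_b, List.length_append]; omega
    · rwa [mv_of_not ha hb]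

/-- The image of a move. -/
lemma mv_comp {e e' : Mv N} (hea : Aff s e.a) (heb : Aff s e.b) (h1 : e'.a = mv s e.a)
    (h2 : e'.b = mv s e.b) (w : Wd) : mv e' (mv s w) = mv s (mv e w) := by
  by_cases ha : e.a <+: w
  · obtain ⟨t, rfl⟩ := ha
    rw [mv_a, mv_append hea, ← h1, mv_a, h2, mv_append heb]
  · by_cases hb : e.b <+: w
    · obtain ⟨t, rfl⟩ := hb
      rw [mv_b, mv_append heb, ← h2, mv_b, h1, mv_append hea]
    · rw [mv_of_not ha hb, mv_of_not]
      · rw [h1, mv_prefix_iff hea]; exact ha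
      · rw [h2, mv_prefix_iff heb]; exact hb

/-- A short prefix avoiding finitely many longer ones. -/
lemma exists_spare (L : List Wd) (hlen : ∀ u ∈ L, N ≤ u.length) (hL : L.length < 2 ^ N) :
    ∃ c : Wd, c.length = N ∧ ∀ u ∈ L, Inc c u := by
  classical
  let S : Finset Wd := (Finset.univ : Finset (Fin N → Bool)).image List.ofFn
  have hcard : S.card = 2 ^ N := by
    rw [Finset.card_image_of_injective _ List.ofFn_injective]
    simp
  have hlt : (L.map (List.take N)).toFinset.card < S.card :=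
    hcard ▸ (List.toFinset_card_le _).trans_lt (by simpa using hL)
  obtain ⟨c, hc, hc'⟩ := Finset.exists_mem_notMem_of_card_lt_card hlt
  obtain ⟨f, -, rfl⟩ := Finset.mem_image.1 hc
  refine ⟨List.ofFn f, List.length_ofFn, fun u hu => ?_⟩
  have hne : List.ofFn f ≠ u.take N := fun h =>
    hc' (List.mem_toFinset.2 (h ▸ List.mem_map_of_mem hu))
  have h := (inc_iff_ne (by simp [hlen u hu])).2 hne
  exact h.of_prefix (List.take_prefix _ _)

end Vale.Agent.P193.Prefix
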