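import Vale.Agent.P193.Prefix.Moves

/-!
P193, W5: a label on the configurations of short prefixes, covariant under the moves, extends to
all configurations. Every configuration descends to a short one by moves shortening one prefix.
-/

namespace Vale.Agent.P193.Prefix

variable {N k : ℕ}

/-- A configuration. -/
abbrev Conf (k : ℕ) := Fin k → Wd

/-- Prefixes of length at least `N`, equal or incomparable. -/
def Ok (N : ℕ) (p : Conf k) : Prop :=
  (∀ i, N ≤ (p i).length) ∧ ∀ i j, p i = p j ∨ Inc (p i) (p j)

/-- A configuration of short prefixes. -/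
def Base (N : ℕ) (p : Conf k) : Prop := ∀ i, (p i).length ≤ N + 1

/-- The effect on a configuration. -/
def act (s : Mv N) (p : Conf k) : Conf k := fun i => mv s (p i)

/-- The move is a substitution on every prefix. -/
def AffC (s : Mv N) (p : Conf k) : Prop := ∀ i, Aff s (p i)

/-- The total length. -/
def weight (p : Conf k) : ℕ := ∑ i, (p i).length

/-- A move shortening the prefixes under a long one to a spare short one. -/
def Dec (e : Mv N) (p : Conf k) : Prop :=
  e.a.length = N + 1 ∧ e.b.length = N ∧ (∃ i, e.a <+: p i) ∧ ∀ i, Inc e.b (p i)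

/-- The move touches no prefix of the configuration. -/
def Fixed (s : Mv N) (p : Conf k) : Prop := ∀ i, Inc s.a (p i) ∧ Inc s.b (p i)

variable {p : Conf k} {s e f : Mv N}

lemma act_act (s : Mv N) (p : Conf k) : act s (act s p) = p := funext fun i => mv_mv s (p i)

lemma Fixed.aff (h : Fixed s p) : AffC s p := fun i => ((h i).1.fix (h i).2).1

lemma Fixed.act_eq (h : Fixed s p) : act s p = p := funext fun i => ((h i).1.fix (h i).2).2

lemma ok_act (hp : Ok N p) (hs : AffC s p) : Ok N (act s p) :=
  ⟨fun i => le_length_mv (hp.1 i), fun i j => (hp.2 i j).imp (congrArg (mv s))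
    (mv_inc (hs i) (hs j))⟩

lemma Dec.aff (h : Dec e p) (hp : Ok N p) : AffC e p := by
  obtain ⟨ha, hb, ⟨i, hi⟩, hc⟩ := h
  intro j
  refine ⟨fun hj => ?_, fun hj => absurd hj (hc j).2⟩
  rcases hp.2 i j with he | he
  · exact he ▸ hi
  · exact absurd (hj.trans hi) he.2

lemma Dec.not_b (h : Dec e p) (i : Fin k) : ¬ e.b <+: p i := (h.2.2.2 i).1

lemma Dec.mv_cases (h : Dec e p) (j : Fin k) :
    (∃ t, p j = e.a ++ t ∧ mv e (p j) = e.b ++ t) ∨ (¬ e.a <+: p j ∧ mv e (p j) = p j) := by
  by_cases ha : e.a <+: p j
  · obtain ⟨t, ht⟩ := ha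
    exact Or.inl ⟨t, ht.symm, by rw [← ht, mv_a]⟩
  · exact Or.inr ⟨ha, mv_of_not ha (h.not_b j)⟩

lemma Dec.inc_act (h : Dec e p) {u : Wd} (hu : Inc u e.b) (j : Fin k) (hj : Inc u (p j)) :
    Inc u (mv e (p j)) := by
  rcases h.mv_cases j with ⟨t, -, ht⟩ | ⟨-, ht⟩
  · rw [ht]; exact hu.of_prefix (List.prefix_append _ _)
  · rwa [ht]

lemma Dec.weight_lt (h : Dec e p) : weight (act e p) < weight p := by
  obtain ⟨i, hi⟩ := h.2.2.1
  obtain ⟨ha, hb, -, -⟩ := id h
  refine Finset.sum_lt_sum (fun j _ => ?_) ⟨i, Finset.mem_univ i, ?_⟩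
  · rcases h.mv_cases j with ⟨t, ht, ht'⟩ | ⟨-, ht⟩
    · show (mv e (p j)).length ≤ _
      rw [ht', ht, List.length_append, List.length_append]; omega
    · exact (congrArg List.length ht).le
  · rcases h.mv_cases i with ⟨t, ht, ht'⟩ | ⟨hn, -⟩
    · show (mv e (p i)).length < _
      rw [ht', ht, List.length_append, List.length_append]; omega
    · exact absurd hi hn

lemma Dec.fixed_or (hp : Ok N p) {x : Wd} {i : Fin k} (hi : x <+: p i)
    (j : Fin k) : x <+: p j ∨ Inc x (p j) := by
  by_cases h : x <+: p j
  · exact Or.inl h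
  · refine Or.inr ⟨h, fun h' => ?_⟩
    rcases hp.2 i j with he | he
    · exact h (he ▸ hi)
    · exact he.2 (h'.trans hi)

/-- A shortening move avoiding given prefixes, for a given long prefix. -/
lemma exists_dec (hk : k + 6 ≤ 2 ^ N) (hp : Ok N p) {x : Wd} (hx : x.length = N + 1) {i : Fin k}
    (hi : x <+: p i) (L : List Wd) (hL : ∀ u ∈ L, N ≤ u.length) (hLlen : L.length ≤ 4) :
    ∃ e : Mv N, e.a = x ∧ Dec e p ∧ ∀ u ∈ L, Inc e.b u := by
  obtain ⟨c, hc, hcL⟩ := exists_spare (N := N) (x :: (List.ofFn p ++ L))
    (fun u hu => by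
      simp only [List.mem_cons, List.mem_append, List.mem_ofFn] at hu
      rcases hu with rfl | ⟨j, rfl⟩ | hu
      · omega
      · exact hp.1 j
      · exact hL u hu)
    (by simp; omega)
  exact ⟨⟨x, c, Or.inr hx, Or.inl hc, (hcL x (by simp)).symm⟩, rfl,
    ⟨hx, hc, ⟨i, hi⟩, fun j => hcL _ (by simp [List.mem_ofFn])⟩,
    fun u hu => hcL u (by simp [hu])⟩

lemma exists_dec_of_long (hk : k + 6 ≤ 2 ^ N) (hp : Ok N p) (h : ∃ i, N + 1 ≤ (p i).length)
    (L : List Wd) (hL : ∀ u ∈ L, N ≤ u.length) (hLlen : L.length ≤ 4) :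
    ∃ e : Mv N, Dec e p ∧ ∀ u ∈ L, Inc e.b u := by
  obtain ⟨i, hi⟩ := h
  obtain ⟨e, -, h1, h2⟩ := exists_dec hk hp (x := (p i).take (N + 1)) (by simp; omega)
    (List.take_prefix _ _) L hL hLlen
  exact ⟨e, h1, h2⟩

/-- Every configuration descends to a base one. -/
lemma induct_descent (hk : k + 6 ≤ 2 ^ N) {P : Conf k → Prop}
    (base : ∀ p, Ok N p → Base N p → P p)
    (step : ∀ (e : Mv N) p, Ok N p → Dec e p → P (act e p) → P p) : ∀ p, Ok N p → P p := by
  intro p
  induction hn : weight p using Nat.strong_induction_on generalizing p with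
  | _ n ih =>
    intro hp
    by_cases hb : Base N p
    · exact base p hp hb
    · obtain ⟨e, he, -⟩ := exists_dec_of_long hk hp (by
        unfold Base at hb
        push Not at hb
        obtain ⟨i, hi⟩ := hb
        exact ⟨i, by omega⟩) [] (by simp) (by simp)
      exact step e p hp he (ih _ (hn ▸ he.weight_lt) _ rfl (ok_act hp (he.aff hp)))

/-! ### Labels in a group -/

/-- The moves inside a group, with the relations used below. -/
structure MoveRep (N : ℕ) (E : Type*) [Group E] where
  m : Mv N → E
  sq : ∀ s, m s * m s = 1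
  symm : ∀ s, m s.symm = m s
  conj : ∀ s e e' : Mv N, Aff s e.a → Aff s e.b → e'.a = mv s e.a → e'.b = mv s e.b →
    m s * m e * m s = m e'

variable {E : Type*} [Group E] (M : MoveRep N E)

/-- Conjugation by a move. -/
def MoveRep.cj (s : Mv N) (g : E) : E := M.m s * g * M.m s

lemma MoveRep.cj_cj_self (s : Mv N) (g : E) : M.cj s (M.cj s g) = g := by
  simp only [cj, mul_assoc, M.sq, mul_one]
  rw [← mul_assoc, M.sq, one_mul]

lemma MoveRep.cj_comp {s e e' : Mv N} (hea : Aff s e.a) (heb : Aff s e.b) (h1 : e'.a = mv s e.a)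
    (h2 : e'.b = mv s e.b) (g : E) : M.cj e' (M.cj s g) = M.cj s (M.cj e g) := by
  simp only [cj, ← M.conj s e e' hea heb h1 h2]
  simp only [mul_assoc]
  simp only [← mul_assoc]
  simp only [mul_assoc _ (M.m s) (M.m s), M.sq, mul_one]

variable (T₀ : Conf k → E)

open Classical in
/-- The extension of a label on short configurations. -/
noncomputable def ext (p : Conf k) : E :=
  if h : ∃ e : Mv N, Dec e p then M.cj h.choose (ext (act h.choose p)) else T₀ p
termination_by weight p
decreasing_by exact h.choose_spec.weight_lt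

lemma ext_of_dec {p : Conf k} (h : ∃ e : Mv N, Dec e p) :
    ext M T₀ p = M.cj h.choose (ext M T₀ (act h.choose p)) := by
  rw [ext, dif_pos h]

lemma ext_of_not {p : Conf k} (h : ¬ ∃ e : Mv N, Dec e p) : ext M T₀ p = T₀ p := by
  rw [ext, dif_neg h]

variable (hk : k + 6 ≤ 2 ^ N)
  (h₀ : ∀ (s : Mv N) (p : Conf k), Ok N p → Base N p → AffC s p → Base N (act s p) →
    M.cj s (T₀ p) = T₀ (act s p))

include hk h₀

/-- The three parts of covariance at one weight. -/
lemma covariant_at : ∀ n : ℕ,
    (∀ p, Ok N p → weight p = n → ∀ e, Dec e p → ext M T₀ p = M.cj e (ext M T₀ (act e p))) ∧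
    (∀ p, Ok N p → weight p = n → ∀ s, Fixed s p → M.cj s (ext M T₀ p) = ext M T₀ p) ∧
    ∀ p, Ok N p → weight p = n → ∀ s : Mv N, s.a.length = s.b.length → AffC s p →
      M.cj s (ext M T₀ p) = ext M T₀ (act s p) := by
  intro n
  induction n using Nat.strong_induction_on with
  | _ n ih =>
  have hdec : ∀ p, Ok N p → weight p = n → ∀ e, Dec e p →
      ext M T₀ p = M.cj e (ext M T₀ (act e p)) := by
    intro p hp hn e he
    have hex : ∃ e : Mv N, Dec e p := ⟨e, he⟩
    rw [ext_of_dec M T₀ hex]
    obtain hf := hex.choose_spec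
    revert hf
    generalize hex.choose = f
    intro hf
    have same : ∀ e f : Mv N, Dec e p → Dec f p → e.a = f.a → e.b ≠ f.b →
        M.cj f (ext M T₀ (act f p)) = M.cj e (ext M T₀ (act e p)) := by
      intro e f he hf hab hbb
      obtain ⟨i, hi⟩ := he.2.2.1
      have hcd : Inc e.b f.b := (inc_iff_ne (he.2.1.trans hf.2.1.symm)).2 hbb
      let u : Mv N := ⟨e.b, f.b, Or.inl he.2.1, Or.inl hf.2.1, hcd⟩
      have hux : Inc e.b e.a ∧ Inc f.b e.a := ⟨e.inc.symm, hab ▸ f.inc.symm⟩
      have hw := (ih _ (hn ▸ he.weight_lt))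
      have hq : Ok N (act e p) := ok_act hp (he.aff hp)
      -- `u` carries `act e p` to `act f p`
      have hua : Aff u e.a := (hux.1.fix (s := u) hux.2).1
      have hua' : mv u e.a = e.a := (hux.1.fix (s := u) hux.2).2
      have hub : Aff u e.b := aff_of_under (Or.inl List.prefix_rfl)
      have hub' : mv u e.b = f.b := by
        have := mv_a u []; simpa using this
      have hfp : act u (act e p) = act f p := funext fun j => by
        show mv u (mv e (p j)) = mv f (p j)
        rw [← mv_comp (e' := f) hua hub (hab.symm.trans hua'.symm) hub'.symm,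
          mv_of_not (s := u) (he.not_b j) (hf.not_b j)]
      have haff : AffC u (act e p) := fun j => by
        rcases he.mv_cases j with ⟨t, -, ht⟩ | ⟨-, ht⟩
        · show Aff u (mv e (p j))
          rw [ht]
          exact aff_of_under (Or.inl (List.prefix_append _ _))
        · show Aff u (mv e (p j))
          rw [ht]
          exact ((he.2.2.2 j).fix (s := u) (hf.2.2.2 j)).1
      have hfix : Fixed f (act e p) := fun j => by
        refine ⟨?_, he.inc_act hcd.symm j (hf.2.2.2 j)⟩
        rcases he.mv_cases j with ⟨t, -, ht⟩ | ⟨hn', ht⟩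
        · show Inc f.a (mv e (p j))
          rw [ht]
          exact (hab ▸ e.inc).of_prefix (List.prefix_append _ _)
        · show Inc f.a (mv e (p j))
          rw [ht, ← hab]
          exact (Dec.fixed_or hp hi j).resolve_left hn'
      -- `e` carries `u` to `f`
      have h3 : ∀ g, M.cj f (M.cj e g) = M.cj e (M.cj u g) := fun g => by
        refine M.cj_comp (e := u) ?_ ?_ ?_ ?_ g
        · exact aff_of_under (Or.inr List.prefix_rfl)
        · exact ((hux.2.symm).fix (s := e) hcd).1
        · have := mv_b e []
          simp only [List.append_nil] at this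
          exact (hab ▸ this).symm
        · exact (((hux.2.symm).fix (s := e) hcd).2).symm
      rw [← hfp, ← hw.2.2 _ hq rfl u (he.2.1.trans hf.2.1.symm) haff,
        M.cj_comp (e' := f) hua hub (hab.symm.trans hua'.symm) hub'.symm]
      -- now `u` commutes with the value
      have h4 := h3 (M.cj e (ext M T₀ (act e p)))
      rw [M.cj_cj_self, hw.2.1 _ hq rfl f hfix] at h4
      conv_rhs => rw [h4]
      rw [M.cj_cj_self]
    have diff : ∀ e f : Mv N, Dec e p → Dec f p → e.a ≠ f.a → e.b ≠ f.b →
        M.cj f (ext M T₀ (act f p)) = M.cj e (ext M T₀ (act e p)) := by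
      intro e f he hf hab hbb
      obtain ⟨i, hi⟩ := he.2.2.1
      obtain ⟨i', hi'⟩ := hf.2.2.1
      have haa : Inc e.a f.a := (inc_iff_ne (he.1.trans hf.1.symm)).2 hab
      have hbb' : Inc e.b f.b := (inc_iff_ne (he.2.1.trans hf.2.1.symm)).2 hbb
      have heb : Inc e.b f.a :=
        ⟨fun h => (he.2.2.2 i').1 (h.trans hi'), fun h => by
          have := h.length_le; have := he.2.1; have := hf.1; omega⟩
      have hfb : Inc f.b e.a :=
        ⟨fun h => (hf.2.2.2 i).1 (h.trans hi), fun h => by
          have := h.length_le; have := hf.2.1; have := he.1; omega⟩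
      have fa := haa.fix (s := e) heb
      have fb := hfb.symm.fix (s := e) hbb'
      have hcomm : ∀ g, M.cj f (M.cj e g) = M.cj e (M.cj f g) :=
        M.cj_comp fa.1 fb.1 fa.2.symm fb.2.symm
      have hcomm' : act f (act e p) = act e (act f p) :=
        funext fun j => mv_comp fa.1 fb.1 fa.2.symm fb.2.symm (p j)
      have hde : Dec f (act e p) := by
        refine ⟨hf.1, hf.2.1, ⟨i', ?_⟩, fun j => he.inc_act hbb'.symm j (hf.2.2.2 j)⟩
        have := mv_prefix fa.1 hi'
        rwa [fa.2] at this
      have hdf : Dec e (act f p) := by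
        refine ⟨he.1, he.2.1, ⟨i, ?_⟩, fun j => hf.inc_act hbb' j (he.2.2.2 j)⟩
        have fa' := haa.symm.fix (s := f) hfb
        have := mv_prefix fa'.1 hi
        rwa [fa'.2] at this
      have h1 := (ih _ (hn ▸ he.weight_lt)).1 _ (ok_act hp (he.aff hp)) rfl f hde
      have h2 := (ih _ (hn ▸ hf.weight_lt)).1 _ (ok_act hp (hf.aff hp)) rfl e hdf
      rw [h1, h2, hcomm', hcomm]
    by_cases hab : e.a = f.a
    · by_cases hbb : e.b = f.b
      · rw [Mv.ext' hab hbb]
      · exact same e f he hf hab hbb
    · by_cases hbb : e.b = f.b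
      · obtain ⟨i, hi⟩ := hf.2.2.1
        obtain ⟨g, hga, hg, hgb⟩ := exists_dec hk hp hf.1 hi [f.b, e.a]
          (fun u hu => by
            have := hf.2.1; have := he.1
            simp at hu; rcases hu with rfl | rfl <;> omega) (by simp)
        have hne : g.b ≠ f.b := fun h => (hgb f.b (by simp)).1 (h ▸ List.prefix_rfl)
        rw [same g f hg hf hga hne]
        exact diff e g he hg (by rw [hga]; exact hab) (by rw [hbb]; exact hne.symm)
      · exact diff e f he hf hab hbb
  refine ⟨hdec, ?_, ?_⟩
  · intro p hp hn s hs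
    by_cases h : ∃ i, N + 1 ≤ (p i).length
    · obtain ⟨e, he, hes⟩ := exists_dec_of_long hk hp h [s.a, s.b]
        (fun u hu => by
          have := s.ha; have := s.hb
          simp at hu; rcases hu with rfl | rfl <;> omega) (by simp)
      obtain ⟨i, hi⟩ := he.2.2.1
      have hxa : Inc s.a e.a :=
        ⟨fun h => (hs i).1.1 (h.trans hi), fun h => by
          have := h.length_le; have := s.ha; have := he.1
          exact (hs i).1.1 ((h.eq_of_length (by omega)) ▸ hi)⟩
      have hxb : Inc s.b e.a :=
        ⟨fun h => (hs i).2.1 (h.trans hi), fun h => by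
          have := h.length_le; have := s.hb; have := he.1
          exact (hs i).2.1 ((h.eq_of_length (by omega)) ▸ hi)⟩
      have fa := hxa.fix (s := s) hxb
      have fb := (hes s.a (by simp)).symm.fix (s := s) (hes s.b (by simp)).symm
      have hfix : Fixed s (act e p) := fun j =>
        ⟨he.inc_act (hes s.a (by simp)).symm j (hs j).1,
          he.inc_act (hes s.b (by simp)).symm j (hs j).2⟩
      rw [hdec p hp hn e he, ← M.cj_comp (e' := e) fa.1 fb.1 fa.2.symm fb.2.symm,
        (ih _ (hn ▸ he.weight_lt)).2.1 _ (ok_act hp (he.aff hp)) rfl s hfix]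
    · have hno : ¬ ∃ e : Mv N, Dec e p := by
        rintro ⟨e, he⟩
        obtain ⟨i, hi⟩ := he.2.2.1
        exact h ⟨i, he.1 ▸ hi.length_le⟩
      push Not at h
      have hb : Base N p := fun i => by have := h i; omega
      rw [ext_of_not M T₀ hno, h₀ s p hp hb hs.aff (by rw [hs.act_eq]; exact hb), hs.act_eq]
  · intro p hp hn s hlen haff
    by_cases h : ∃ i, N + 1 ≤ (p i).length
    · obtain ⟨e, he, hes⟩ := exists_dec_of_long hk hp h [s.a, s.b]
        (fun u hu => by
          have := s.ha; have := s.hb
          simp at hu; rcases hu with rfl | rfl <;> omega) (by simp)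
      obtain ⟨i, hi⟩ := he.2.2.1
      have hax : Aff s e.a := by
        constructor <;> intro hp' <;>
          [have hl := s.ha; have hl := s.hb] <;>
          · have := hp'.length_le
            have := he.1
            rw [hp'.eq_of_length (by omega)]
      have fb := (hes s.a (by simp)).symm.fix (s := s) (hes s.b (by simp)).symm
      have hlen' : (mv s e.a).length = N + 1 := by
        by_cases ha : s.a <+: e.a
        · obtain ⟨t, ht⟩ := ha
          have := congrArg List.length ht
          rw [← ht, mv_a, List.length_append]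
          rw [List.length_append, he.1] at this
          omega
        · by_cases hb : s.b <+: e.a
          · obtain ⟨t, ht⟩ := hb
            have := congrArg List.length ht
            rw [← ht, mv_b, List.length_append]
            rw [List.length_append, he.1] at this
            omega
          · rw [mv_of_not ha hb, he.1]
      have hinc' : Inc (mv s e.a) e.b := by
        have := mv_inc hax fb.1 e.inc
        rwa [fb.2] at this
      let e' : Mv N := ⟨mv s e.a, e.b, Or.inr hlen', Or.inl he.2.1, hinc'⟩
      have he' : Dec e' (act s p) := by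
        refine ⟨hlen', he.2.1, ⟨i, mv_prefix hax hi⟩, fun j => ?_⟩
        have := mv_inc fb.1 (haff j) (he.2.2.2 j)
        rwa [fb.2] at this
      have hwt : weight (act s p) = n := by
        rw [← hn]
        refine Finset.sum_congr rfl fun j _ => ?_
        by_cases ha : s.a <+: p j
        · obtain ⟨t, ht⟩ := ha
          simp [act, ← ht, mv_a, hlen]
        · by_cases hb : s.b <+: p j
          · obtain ⟨t, ht⟩ := hb
            simp [act, ← ht, mv_b, hlen]
          · simp [act, mv_of_not ha hb]
      have haff' : AffC s (act e p) := fun j => by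
        show Aff s (mv e (p j))
        rcases he.mv_cases j with ⟨t, -, ht⟩ | ⟨-, ht⟩
        · rw [ht]
          exact (((hes s.a (by simp)).symm.of_prefix (List.prefix_append _ t)).fix (s := s)
            ((hes s.b (by simp)).symm.of_prefix (List.prefix_append _ t))).1
        · rw [ht]; exact haff j
      rw [hdec (act s p) (ok_act hp haff) hwt e' he', hdec p hp hn e he,
        ← M.cj_comp (e' := e') hax fb.1 rfl fb.2.symm,
        (ih _ (hn ▸ he.weight_lt)).2.2 _ (ok_act hp (he.aff hp)) rfl s hlen haff']
      exact congrArg (fun q => M.cj e' (ext M T₀ q))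
        (funext fun j => (mv_comp hax fb.1 (e' := e') rfl fb.2.symm (p j)).symm)
    · have hno : ∀ q : Conf k, (∀ j, (q j).length ≤ N) → ¬ ∃ e : Mv N, Dec e q := by
        rintro q hq ⟨e, he⟩
        obtain ⟨j, hj⟩ := he.2.2.1
        have := hj.length_le; have := hq j; have := he.1; omega
      push Not at h
      have hb : Base N p := fun i => by have := h i; omega
      have hlen2 : ∀ j, (act s p j).length ≤ N := fun j => by
        have := h j
        by_cases ha : s.a <+: p j
        · obtain ⟨t, ht⟩ := ha
          show (mv s (p j)).length ≤ N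
          rw [← ht, List.length_append] at this
          rw [← ht, mv_a, List.length_append]
          omega
        · by_cases hb : s.b <+: p j
          · obtain ⟨t, ht⟩ := hb
            show (mv s (p j)).length ≤ N
            rw [← ht, List.length_append] at this
            rw [← ht, mv_b, List.length_append]
            omega
          · simp only [act, mv_of_not ha hb]; omega
      rw [ext_of_not M T₀ (hno p fun j => by have := h j; omega), ext_of_not M T₀ (hno _ hlen2),
        h₀ s p hp hb haff fun j => by have := hlen2 j; omega]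

/-- Shortening moves compute the extension. -/
lemma ext_dec (hp : Ok N p) (he : Dec e p) : ext M T₀ p = M.cj e (ext M T₀ (act e p)) :=
  (covariant_at M T₀ hk h₀ _).1 p hp rfl e he

/-- The extension agrees with the label on short configurations. -/
lemma ext_base : ∀ p, Ok N p → Base N p → ext M T₀ p = T₀ p := by
  intro p
  induction hn : weight p using Nat.strong_induction_on generalizing p with
  | _ n ih =>
    intro hp hb
    by_cases h : ∃ e : Mv N, Dec e p
    · obtain ⟨e, he⟩ := h
      have hb' : Base N (act e p) := fun j => by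
        rcases he.mv_cases j with ⟨t, ht, ht'⟩ | ⟨-, ht⟩
        · have := hb j
          show (mv e (p j)).length ≤ N + 1
          rw [ht, List.length_append, he.1] at this
          rw [ht', List.length_append, he.2.1]; omega
        · show (mv e (p j)).length ≤ N + 1
          rw [ht]; exact hb j
      rw [ext_dec M T₀ hk h₀ hp he,
        ih _ (hn ▸ he.weight_lt) _ rfl (ok_act hp (he.aff hp)) hb', ← h₀ e p hp hb (he.aff hp) hb',
        M.cj_cj_self]
    · exact ext_of_not M T₀ h

/-- The extension is covariant under every affine move. -/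
theorem ext_covariant (hp : Ok N p) (hs : AffC s p) :
    M.cj s (ext M T₀ p) = ext M T₀ (act s p) := by
  have hsymm : ∀ (s : Mv N) g, M.cj s.symm g = M.cj s g := fun s g => by
    simp [MoveRep.cj, M.symm]
  have main : ∀ (s : Mv N) (p : Conf k), s.a.length = N + 1 → s.b.length = N → Ok N p → AffC s p →
      M.cj s (ext M T₀ p) = ext M T₀ (act s p) := by
    intro s p hla hlb hp hs
    by_cases hb : ∃ i, s.b <+: p i
    swap
    · push Not at hb
      have hincb : ∀ i, Inc s.b (p i) := fun i => ⟨hb i, fun h => hb i ((hs i).2 h)⟩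
      by_cases ha : ∃ i, s.a <+: p i
      · rw [ext_dec M T₀ hk h₀ hp (e := s) ⟨hla, hlb, ha, hincb⟩, M.cj_cj_self]
      · push Not at ha
        have hfix : Fixed s p := fun i => ⟨⟨ha i, fun h => ha i ((hs i).1 h)⟩, hincb i⟩
        rw [(covariant_at M T₀ hk h₀ _).2.1 p hp rfl s hfix, hfix.act_eq]
    obtain ⟨i, hi⟩ := hb
    by_cases ha : ∃ i, s.a <+: p i
    swap
    · push Not at ha
      have hd : Dec s (act s p) := by
        refine ⟨hla, hlb, ⟨i, ?_⟩, fun j => ?_⟩
        · obtain ⟨t, ht⟩ := hi
          exact ⟨t, by simp [act, ← ht, mv_b]⟩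
        · show Inc s.b (mv s (p j))
          by_cases hj : s.b <+: p j
          · obtain ⟨t, ht⟩ := hj
            rw [← ht, mv_b]
            exact s.inc.symm.of_prefix (List.prefix_append _ _)
          · rw [mv_of_not (ha j) hj]
            exact ⟨hj, fun h => hj ((hs j).2 h)⟩
      rw [ext_dec M T₀ hk h₀ (ok_act hp hs) hd, act_act]
    obtain ⟨i', hi'⟩ := ha
    obtain ⟨e, hea, he, heL⟩ := exists_dec hk hp hla hi' [s.a, s.b]
      (fun u hu => by simp at hu; rcases hu with rfl | rfl <;> omega) (by simp)
    have hbs : Inc e.b s.b := heL _ (by simp)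
    let s' : Mv N := ⟨e.b, s.b, Or.inl he.2.1, Or.inl hlb, hbs⟩
    have hsa : Aff e s.a := aff_of_under (Or.inl (hea ▸ List.prefix_rfl))
    have hea' : Inc e.a s.b := hea ▸ s.inc
    have hsb := hea'.fix (s := e) hbs
    have h1 : s'.a = mv e s.a := by
      have := mv_a e []
      simp only [List.append_nil, hea] at this
      exact this.symm
    have hq : Dec e (act s p) := by
      refine ⟨he.1, he.2.1, ⟨i, ?_⟩, fun j => ?_⟩
      · obtain ⟨t, ht⟩ := hi
        exact ⟨t, by simp [act, ← ht, mv_b, hea]⟩
      · show Inc e.b (mv s (p j))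
        by_cases hja : s.a <+: p j
        · obtain ⟨t, ht⟩ := hja
          rw [← ht, mv_a]
          exact hbs.of_prefix (List.prefix_append _ _)
        · by_cases hjb : s.b <+: p j
          · obtain ⟨t, ht⟩ := hjb
            rw [← ht, mv_b]
            exact (heL s.a (by simp)).of_prefix (List.prefix_append _ _)
          · rw [mv_of_not hja hjb]; exact he.2.2.2 j
    have haff' : AffC s' (act e p) := fun j => by
      show Aff s' (mv e (p j))
      rcases he.mv_cases j with ⟨t, -, ht⟩ | ⟨-, ht⟩
      · rw [ht]; exact aff_of_under (Or.inl (List.prefix_append _ _))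
      · rw [ht]
        exact ⟨fun h => absurd h (he.2.2.2 j).2, (hs j).2⟩
    have hs' : ∀ g, M.cj s' (M.cj e g) = M.cj e (M.cj s g) :=
      M.cj_comp hsa hsb.1 h1 hsb.2.symm
    rw [ext_dec M T₀ hk h₀ hp he, ext_dec M T₀ hk h₀ (ok_act hp hs) hq]
    have hact : act e (act s p) = act s' (act e p) :=
      funext fun j => (mv_comp hsa hsb.1 h1 hsb.2.symm (p j)).symm
    rw [hact, ← (covariant_at M T₀ hk h₀ _).2.2 _ (ok_act hp (he.aff hp)) rfl s'
      (he.2.1.trans hlb.symm) haff']
    have := congrArg (M.cj e) (hs' (M.cj e (ext M T₀ (act e p))))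
    rw [M.cj_cj_self, M.cj_cj_self] at this
    rw [this]
  rcases Decidable.eq_or_ne s.a.length s.b.length with h | h
  · exact (covariant_at M T₀ hk h₀ _).2.2 p hp rfl s h hs
  rcases s.ha with ha | ha <;> rcases s.hb with hb | hb
  · omega
  · have := main s.symm p hb ha hp fun i => aff_symm.2 (hs i)
    rw [hsymm] at this
    rw [this]
    exact congrArg _ (funext fun i => mv_symm s (p i))
  · exact main s p ha hb hp hs
  · omega

end Vale.Agent.P193.Prefix
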